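import Vale.Agent.P287T.Top.Main

/-!
# Very general cubic fourfolds of large discriminant with an associated K3 surface
-/

set_option linter.style.haveILetI false

universe w w'

namespace Vale.Agent.P287D.Ex

open Set Filter Topology Module Metric P287T P287T.Ch P287T.Sw

section abs

variable {Λ : Type} [AddCommGroup Λ] {B : Λ →+ Λ →+ ℤ} {V : Type} [NormedAddCommGroup V]
  [NormedSpace ℝ V] [FiniteDimensional ℝ V] {b : V →ₗ[ℝ] V →ₗ[ℝ] ℝ} {ι : Λ →+ V} {l1 l2 : Λ}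
  {T : Type} [TopologicalSpace T] {D : Set T} {x y : T → V} {t : T}

omit [FiniteDimensional ℝ V] in
theorem sat1 (L : Lat B l1 l2) (E : Emb B b ι) {o w : Λ} (ho : Node B l1 l2 o)
    (h : ∀ ξ, b (ι l1) ξ = 0 → b (ι l2) ξ = 0 → b (ι o) ξ = 0 → b (ι w) ξ = 0) :
    ∃ r1 r2 j : ℤ, w = r1 • l1 + r2 • l2 + j • o := by
  obtain ⟨e, f, e', f', hU, hG⟩ := L.uu o ho.iso ho.cop
  have u := hU.u1
  obtain ⟨g, pg, go⟩ := ho.sat
  have k1 := hG l1 (by simp)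
  have k2 := hG l2 (by simp)
  have k3 := hG o (by simp)
  have fe : B f e = 1 := (L.symm _ _).trans u.ef
  have fo : B f o = 0 := (L.symm _ _).trans k3.2.1
  obtain ⟨r1, r2, j, z, e1⟩ := Vg_sat L E (o := o) (n := e) (g1 := g - B g e • f) (g2 := f) (w := w)
    ⟨by simp [pg.1, k1.2.1], by simp [pg.2, k2.2.1]⟩ ⟨k1.2.1, k2.2.1⟩ (by simp [go, fo])
    (by simp [fe]) fo fe fun ξ a c d _ => h ξ a c d
  have k4 : B w f = 0 := by
    have := h (ι f) (by rw [E.cast, k1.2.1]; simp) (by rw [E.cast, k2.2.1]; simp)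
      (by rw [E.cast, k3.2.1]; simp)
    rw [E.cast] at this
    exact_mod_cast this
  have : z = 0 := by simpa [e1, k1.2.1, k2.2.1, k3.2.1, u.ef] using k4
  exact ⟨r1, r2, j, by rw [e1, this, zero_smul, add_zero]⟩

theorem vg1 [Countable Λ] (L : Lat B l1 l2) (E : Emb B b ι) (G : Geo b (ι l1) (ι l2) D x y)
    {o : Λ} (no : Node B l1 l2 o) (ht : t ∈ D) (ho : Hd b (x t) (y t) (ι o)) :
    ∃ t' ∈ D, Hd b (x t') (y t') (ι o) ∧
      ∀ w, Hd b (x t') (y t') (ι w) → ∃ r1 r2 j : ℤ, w = r1 • l1 + r2 • l2 + j • o := by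
  let W : Submodule ℝ V := (b (ι l1)).ker ⊓ (b (ι l2)).ker ⊓ (b (ι o)).ker
  have : CompleteSpace W := FiniteDimensional.complete ℝ W
  let S : Λ → Set W := fun w => {ξ | (∃ η : W, b (ι w) η ≠ 0) → b (ι w) (x t + ξ) ≠ 0}
  have c : ∀ w, Continuous fun ξ : W => b (ι w) (x t + ξ) := fun w =>
    cont_b₂ b continuous_const (continuous_const.add continuous_subtype_val)
  have d : Dense (⋂ w, S w) := dense_iInter_of_isOpen (fun w => by
    by_cases h : ∃ η : W, b (ι w) η ≠ 0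
    · simp only [S, h, true_imp_iff]
      exact isOpen_ne_fun (c w) continuous_const
    · simp only [S, h, false_imp_iff]
      exact isOpen_univ) fun w ξ => by
    by_cases h : ξ ∈ S w
    · exact subset_closure h
    obtain ⟨⟨η, hη⟩, h0⟩ := Classical.not_imp.1 h
    have k : Tendsto (fun s : ℝ => ξ + s • η) (𝓝[≠] 0) (𝓝 ξ) := by
      have : Continuous fun s : ℝ => ξ + s • η := by fun_prop
      simpa using (this.tendsto 0).mono_left nhdsWithin_le_nhds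
    refine mem_closure_of_tendsto k (eventually_nhdsWithin_of_forall fun s hs _ => ?_)
    rw [Submodule.coe_add, ← add_assoc, map_add, not_not.1 h0, zero_add, Submodule.coe_smul,
      map_smul]
    exact smul_ne_zero hs hη
  have k : Tendsto (fun ξ : W => (x t + ξ, y t)) (𝓝 0) (𝓝 (x t, y t)) := by
    have : Continuous fun ξ : W => (x t + ξ, y t) := by fun_prop
    simpa using this.tendsto 0
  obtain ⟨ξ, h1, h2⟩ := d.inter_nhds_nonempty (k.eventually (G.mov t ht univ univ_mem))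
  obtain ⟨⟨w1, w2⟩, w3⟩ := ξ.2
  have p : ∀ g, b g ξ = 0 → Hd b (x t) (y t) g → Hd b (x t + ξ) (y t) g :=
    fun g a a' => ⟨by rw [map_add, a, a'.1, add_zero], a'.2⟩
  obtain ⟨t', h, e⟩ := h2 (p _ w1 (G.h1 t ht)) (p _ w2 (G.h2 t ht))
  refine ⟨t', h.1, (e _).2 (p _ w3 ho), fun w hw => sat1 L E no fun η b1 b2 b3 => ?_⟩
  by_contra r
  exact mem_iInter.1 h1 w ⟨⟨η, ⟨b1, b2⟩, b3⟩, r⟩ ((e _).1 hw).1

theorem big [Countable Λ] (L : Lat B l1 l2) (E : Emb B b ι) (G : Geo b (ι l1) (ι l2) D x y)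
    {v : Λ} (hv : Node B l1 l2 v) (ht : t ∈ D) (R : ℤ) :
    ∃ t' ∈ D, ∃ u, Node B l1 l2 u ∧ R < |B l1 u| ∧ Hd b (x t') (y t') (ι u) ∧
      ∀ w, Hd b (x t') (y t') (ι w) → ∃ r1 r2 j : ℤ, w = r1 • l1 + r2 • l2 + j • u := by
  obtain ⟨e, l, ξ, pe, -, -, hl, -, hξ, hlξ, c1, c2, -, ap⟩ := stepA L E hv v
    (one_ne_zero (α := ℝ)) (G.neg t ht) (G.h1 t ht) (G.h2 t ht) (G.h1 t ht) (G.h2 t ht)
  have h0 : 0 < |b (ι l1) l| := by
    have : (2 * B l2 v + B l1 v : ℝ) ≠ 0 := by exact_mod_cast (node_dir hv.cop hv.big).1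
    rw [c1, abs_pos]
    exact mul_ne_zero (neg_ne_zero.2 one_ne_zero) this
  have c : Continuous fun q : V × ℝ => b (ι l1) q.1 := cont_b₂ b continuous_const continuous_fst
  have a : ∀ᶠ q : V × ℝ in 𝓝 (l, (0 : ℝ)), R * q.2 < |b (ι l1) q.1| :=
    ContinuousAt.eventually_lt (by fun_prop) (by fun_prop) (by simpa using h0)
  obtain ⟨u, hu, ε, hε, ⟨t1, ht1, a1, -⟩, a5, a6⟩ := ap.ex
    ((ev_fst (G.stab E.symm ht univ_mem (hξ l1 (by simp)) (hξ l2 (by simp)) hl hlξ)).and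
    ((far_perp E hv (neg_ne_zero.2 one_ne_zero) c1 (by rw [neg_neg, c2])
      (by nlinarith [hv.big])).and a))
  have nu := Nb.node L hu pe (a5 u hε rfl)
  obtain ⟨t', h1, h2, h3⟩ := vg1 L E G nu ht1.1 (hd_smul hε a1)
  refine ⟨t', h1, u, nu, ?_, h2, h3⟩
  simp only [map_smul, smul_eq_mul, E.cast, abs_mul, abs_of_pos hε] at a6
  rw [mul_comm ε] at a6
  exact_mod_cast lt_of_mul_lt_mul_right a6 hε.le

end abs

open P291Z P269 P287Q P287Q.Cub P287Q.Zc P287T.Cy P287T.Au P287T.Rr P287T.Top P287T.Cl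

/-- Every node of Hodge type gives the K3 surface. -/
theorem ku_node (F : S6) [Fact (F.IsHomogeneous 3)] (h : Per.Sm F) {v : Cls F} (hv : Top.Node v)
    (hh : Hdg v) : Stm.KuK3.{w, w'} F :=
  have B := plug_blk Fm.UnC.stMain Q0.MB.stH1D
  have hf := stFam_of B.hrr Pj.stProj
  B.final hf Fm.UnC.stMain stSym Kx.stK3 Fm.Dt.stDgk F h v hv (chain PP
    (sys stAdd stMem (Oc.stOpn Df.kur stMem) Oc.stCls (stSw_of B.hrr hf B.stSpan
      (Psi.Fn.psi_of B (fun _ c C G => Psi.typ_of_hol c C G) Psi.Fn.adj0 Psi.CmB.cmp))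
      (Bs.stBase stLat stMem hrr)) F h v hv hh)

/-- An admissible labelling gives the K3 surface. -/
theorem ku_lab (F : S6) [Fact (F.IsHomogeneous 3)] (h : Per.Sm F) {d : ℤ} (h1 : Lab F d)
    (h2 : Lat.Adm d) (h3 : 6 < d) : Stm.KuK3.{w, w'} F :=
  let ⟨_, a, b⟩ := En.entry F h d h1 h2 h3
  ku_node F h a b

theorem exists_node (R : ℤ) : ∃ F : S6, Per.Sm F ∧ ∃ v : Cls F, Top.Node v ∧ Hdg v ∧
    (R : ℝ) < Complex.normSq v.1 ∧ ∀ w ∈ LT F, Hdg w → In1 v w := by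
  obtain ⟨F, h, v, hv, -⟩ := Bs.stBase stLat stMem hrr
  obtain ⟨r, Φ, σ, η, k⟩ := Per.stPer_of Per.stHes T3 h p3 p3_hom
  obtain ⟨D, h1, -, h3, h4⟩ := pm_geo k
  haveI := LT_free h.cu
  haveI := LT_fin h.cu
  haveI : Countable (LT F) := (bs h.cu).equivFun.injective.countable
  obtain ⟨t, ht, u, hu, hR, a, g⟩ := big (lat h.cu) (emb h.cu) h4
    ((node_iff h.cu ⟨v, hv.mem⟩).1 hv) h3 (2 * |R|)
  obtain ⟨b1, b2, -, b4⟩ := stTr h.cu (k.sm t (h1 ht)).cu (k.tr t (h1 ht))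
  obtain ⟨u', e⟩ := b1.2 u.1
  have nu := (b4 u').1 (e ▸ (node_iff _ u).2 hu)
  refine ⟨_, k.sm t (h1 ht), u', nu, (pm_hdg k (h1 ht) nu.mem).1 (e ▸ (hd_io _ _ _).1 a), ?_,
    fun w hw c => ?_⟩
  · have p : Pq u'.1 _ _ := congrArg Prod.fst e ▸ pq_bZ h.cu u
    rw [pq_normSq p, Int.cast_lt]
    generalize bZ h.cu (L1 F) u = m at *
    generalize bZ h.cu (L2 F) u = n at *
    have := sq_abs m
    nlinarith [sq_nonneg (m + 2 * n), le_abs_self R, abs_nonneg R, abs_nonneg m]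
  · obtain ⟨r1, r2, j, d⟩ := g ⟨_, (b2 w).2 hw⟩ ((hd_io _ _ _).2 ((pm_hdg k (h1 ht) hw).2 c))
    refine (tr_In1 b1.1 u' w).1 ⟨r1, r2, j, ?_⟩
    rw [e]
    exact congrArg Subtype.val d

theorem eis_sum {a b : Fin 3 → ℤ} (h : eis a = eis b) :
    ∃ m : ℤ, a 0 + a 1 + a 2 = b 0 + b 1 + b 2 + 3 * m := by
  have k : eis (a - b) = 0 := by rw [sub_eq_add_neg, eis_add, eis_neg, h, add_neg_cancel]
  have p := pq_normSq (a := eis (a - b)) ⟨a - b, rfl, rfl, rfl⟩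
  rw [k, map_zero, eq_comm, Int.cast_eq_zero] at p
  simp only [Pi.sub_apply] at p
  have h1 : a 0 - b 0 - (a 1 - b 1) = 0 := by
    nlinarith [sq_nonneg (a 0 - b 0 - (a 1 - b 1) + 2 * (a 1 - b 1 - (a 2 - b 2)))]
  have h2 : a 1 - b 1 - (a 2 - b 2) = 0 := by
    rw [h1] at p
    nlinarith
  exact ⟨a 0 - b 0, by omega⟩

/-- `H⁴(X, ℤ) ∩ H^{2,2}` has the basis `h², v` and the discriminant `d`. -/
def Gen (F : S6) (d : ℤ) : Prop :=
  ∃ (B : LinearMap.BilinForm ℤ (Lk (XF F) 4)) (η v : Lk (XF F) 4),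
    (∀ x y, (B x y : ℂ) = JF F (x.1 * y.1)) ∧ B.IsSymm ∧ η.1 = hyp F ^ 2 ∧ B η η = 3 ∧
    η.1 ∈ Per.TT F 2 2 ∧ v.1 ∈ Per.TT F 2 2 ∧ d = 3 * B v v - B v η ^ 2 ∧
    ∀ x : Lk (XF F) 4, x.1 ∈ Per.TT F 2 2 → x ∈ Submodule.span ℤ {η, v}

/-- **Existence.** -/
theorem exists_gen (R : ℤ) : ∃ (F : S6) (_ : Fact (F.IsHomogeneous 3)), Per.Sm F ∧
    Stm.KuK3.{w, w'} F ∧ ∃ d, R < d ∧ Gen F d := by
  obtain ⟨F, h, _, hv, hh, hR, g⟩ := exists_node |R|
  haveI := Fact.mk h.hom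
  refine ⟨F, inferInstance, h, ku_node F h hv hh, ?_⟩
  obtain ⟨x, hx, u, hu, rfl⟩ := hv.mem
  lift x to Lk (XF F) 4 using hx
  obtain ⟨B, η, hB, hη, -, -, hs, -, -, h3, -⟩ := stForm h.cu
  have hJ : ∀ y : Lk (XF F) 4, JF F (y.1 * hyp F ^ 2) = B y η := fun y => by rw [hB y η, hη]
  have hp : ∀ y : Lk (XF F) 4, pr F y.1 = y.1 - ((B y η : ℂ) / 3) • η.1 := fun y => by
    rw [pr, hJ, hη]
  have k : η.1 ∈ Per.TT F 2 2 := by
    rw [hη, sq]
    exact h.cubH.hg.mul 1 1 1 1 _ h.cubH.h11 _ h.cubH.h11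
  have k' : ∀ y : Lk (XF F) 4, pr F y.1 ∈ Per.TT F 2 2 ↔ y.1 ∈ Per.TT F 2 2 := fun y => by
    rw [hp]
    exact Submodule.sub_mem_iff_left _ (Submodule.smul_mem _ _ k)
  have hn : 2 * Complex.normSq (eis u) = (3 * B x x - B x η ^ 2 : ℤ) := by
    have e := hv.iso
    rw [P287T.Top.mk, ← Complex.normSq_eq_conj_mul_self, Complex.ofReal_re, J_pr_pr h.cu, hJ, ← hB] at e
    refine Complex.ofReal_injective ?_
    push_cast
    linear_combination 3 * e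
  refine ⟨_, ?_, B, η, x, hB, hs, hη, h3, k, (k' x).1 hh, rfl, fun y hy => ?_⟩
  · have : (R : ℝ) < (3 * B x x - B x η ^ 2 : ℤ) := by
      have a : (R : ℝ) ≤ (|R| : ℤ) := by exact_mod_cast le_abs_self R
      have c := Complex.normSq_nonneg (eis u)
      change _ < Complex.normSq (eis u) at hR
      linarith
    exact_mod_cast this
  · obtain ⟨r1, r2, j, e⟩ := g (eis ![B y η, 0, 0], pr F y.1)
      ⟨y.1, y.2, _, by simp [hJ], rfl⟩ ((k' y).2 hy)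
    have e2 : pr F y.1 = j • pr F x.1 := by simpa [l1, l2] using congrArg Prod.snd e
    obtain ⟨m, e3⟩ := eis_sum (a := ![B y η, 0, 0])
      (b := r1 • ![1, -1, 0] + r2 • ![0, 1, -1] + j • u) (by
        have := congrArg Prod.fst e
        simp [l1, l2, eis] at this ⊢
        linear_combination this)
    rw [hJ, Int.cast_inj] at hu
    have e4 : B y η = j * B x η + 3 * m := by
      simp at e3
      rw [← hu]
      linear_combination e3
    refine Submodule.mem_span_pair.2 ⟨m, j, Subtype.ext ?_⟩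
    rw [hp, hp, e4] at e2
    simp only [← Int.cast_smul_eq_zsmul ℂ] at e2
    simp only [Submodule.coe_add, Submodule.coe_smul_of_tower, ← Int.cast_smul_eq_zsmul ℂ]
    push_cast at e2
    linear_combination (norm := module) -e2

end Vale.Agent.P287D.Ex
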