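import Vale.Agent.P287D.Ex.Gen
import Mathlib.NumberTheory.LSeries.PrimesInAP

/-!
# Very general cubic fourfolds whose discriminant is twice a large prime
-/

set_option linter.style.haveILetI false

universe w w'

namespace Vale.Agent.P287D.Ex.Pm

open Set Filter Topology Module P287T P287T.Ch

section abs

variable {Λ : Type} [AddCommGroup Λ] {B : Λ →+ Λ →+ ℤ} {V : Type} [NormedAddCommGroup V]
  [NormedSpace ℝ V] [FiniteDimensional ℝ V] {b : V →ₗ[ℝ] V →ₗ[ℝ] ℝ} {ι : Λ →+ V} {l1 l2 : Λ}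
  {T : Type} [TopologicalSpace T] {D : Set T} {x y : T → V} {t : T}

theorem arith {N K : ℤ} (hN : 0 < N) (hK : 0 < K) : ∃ R : ℤ, ∀ n, R < n → ∀ ρ : ℤ, ∃ j : ℤ,
    K ≤ j ∧ 3 ∣ j - ρ ∧ ∀ M, 3 * M = j ^ 2 * N - n → ∃ a a' c : ℤ, a * a' + c = M ∧
      K * |a| ≤ j ∧ K * |a'| ≤ j ∧ K * |c| ≤ j := by
  refine ⟨N * (6 * N * K * K + 2 * K + 3) ^ 2, fun n hn ρ => ?_⟩
  have h0 : 0 < 6 * N * K * K := by positivity
  obtain ⟨j0, ⟨k0, k1⟩, k2⟩ := Int.exists_greatest_of_bdd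
    (P := fun j => 0 ≤ j ∧ j ^ 2 * N ≤ n) ⟨n, fun z hz => by
      nlinarith [hz.2, Int.le_self_sq z, mul_le_mul_of_nonneg_left (show 1 ≤ N by omega)
        (sq_nonneg z)]⟩
    ⟨0, le_rfl, by nlinarith [mul_pos hN (pow_pos (by omega : 0 < 6 * N * K * K + 2 * K + 3) 2)]⟩
  have k3 : 6 * N * K * K + 2 * K + 3 ≤ j0 := k2 _ ⟨by omega, by linarith⟩
  have k4 : n < (j0 + 1) ^ 2 * N := by
    by_contra h
    have := k2 (j0 + 1) ⟨by omega, not_lt.1 h⟩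
    omega
  obtain ⟨j, j1, j2, j3⟩ : ∃ j, j0 + 1 ≤ j ∧ j ≤ j0 + 3 ∧ 3 ∣ j - ρ :=
    ⟨j0 + 1 + (ρ - j0 - 1) % 3, by omega, by omega, by omega⟩
  refine ⟨j, by omega, j3, fun M hM => ?_⟩
  have m2 := mul_le_mul_of_nonneg_right (pow_le_pow_left₀ (by omega) j1 2) hN.le
  have m3 := mul_le_mul_of_nonneg_right
    (pow_le_pow_left₀ (by omega : 0 ≤ j - 3) (by omega : j - 3 ≤ j0) 2) hN.le
  have m0 : 0 ≤ M := by linarith
  have m1 : M ≤ 2 * N * j := by nlinarith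
  have a1 : K * (j / K) ≤ j := Int.mul_ediv_self_le hK.ne'
  have a2 : j < K * (j / K) + K := Int.lt_mul_ediv_self_add hK
  generalize j / K = a at a1 a2
  have a3 : 0 < a := by nlinarith
  have b0 : 0 ≤ M / a := Int.ediv_nonneg m0 a3.le
  have b1 : a * (M / a) ≤ M := Int.mul_ediv_self_le a3.ne'
  have c0 := Int.emod_nonneg M a3.ne'
  have c1 := Int.emod_lt_of_pos M a3
  refine ⟨a, M / a, M % a, Int.mul_ediv_add_emod M a, by rwa [abs_of_pos a3], ?_, ?_⟩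
  · rw [abs_of_nonneg b0]
    have b2 : j ≤ 2 * (K * a) := by nlinarith
    have b3 : M / a ≤ 4 * N * K := le_of_mul_le_mul_left (by nlinarith) a3
    nlinarith
  · rw [abs_of_nonneg c0]
    nlinarith

/-- A Hodge class with a prescribed large charge. -/
theorem exists_u (L : Lat B l1 l2) (E : Emb B b ι) (G : Geo b (ι l1) (ι l2) D x y) (ht : t ∈ D)
    {v : Λ} (hv : Node B l1 l2 v) (h3 : ¬3 ∣ B l1 v - B l2 v) (hd : Hd b (x t) (y t) (ι v)) :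
    ∃ R : ℤ, ∀ q1 q2 : ℤ, R < q1 ^ 2 + q1 * q2 + q2 ^ 2 → ¬3 ∣ q1 - q2 → ∃ t' ∈ D, ∃ u f,
      B u u = 0 ∧ B l1 u = q1 ∧ B l2 u = q2 ∧ Pr B l1 l2 f ∧ B f u = 1 ∧
        Hd b (x t') (y t') (ι u) := by
  obtain ⟨e1, f1, e2, f2, U, hU⟩ := L.uu v hv.iso hv.cop
  obtain ⟨g, hg, hg'⟩ := hv.sat
  have s := G.stab E.symm ht univ_mem (ξ := ι g) (by rw [E.cast, hg.1]; simp)
    (by rw [E.cast, hg.2]; simp) hd (by rw [E.cast, L.symm, hg']; simp)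
  have c : Continuous fun s : Fin 4 → ℝ =>
      ι v + s 0 • ι e1 + s 1 • ι f1 + s 2 • ι e2 + s 3 • ι f2 := by fun_prop
  have c0 : Tendsto (fun s : Fin 4 → ℝ =>
      ι v + s 0 • ι e1 + s 1 • ι f1 + s 2 • ι e2 + s 3 • ι f2) (𝓝 0) (𝓝 (ι v)) := by
    simpa using c.tendsto 0
  obtain ⟨ε, hε, s'⟩ := Metric.eventually_nhds_iff.1 (c0.eventually s)
  obtain ⟨K, hK⟩ := exists_int_gt ε⁻¹
  have K0 : (0 : ℝ) < K := (inv_pos.2 hε).trans hK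
  have hb := hv.big
  rw [P287T.Sw.ip3] at hb
  obtain ⟨a1, a2, a3, a4⟩ := hU l1 (by simp)
  obtain ⟨b1, b2, b3, b4⟩ := hU l2 (by simp)
  obtain ⟨c1, c2, c3, c4⟩ := hU v (by simp)
  have hvv := hv.iso
  set p1 := B l1 v with e₁
  set p2 := B l2 v with e₂
  obtain ⟨R, hR⟩ := arith (N := p1 ^ 2 + p1 * p2 + p2 ^ 2) (K := K) (by linarith)
    (by exact_mod_cast K0)
  refine ⟨R, fun q1 q2 h1 h2 => ?_⟩
  obtain ⟨j, j1, j2, j3⟩ := hR _ h1 ((q1 - q2) * (p1 - p2))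
  obtain ⟨m, hm⟩ : (3 : ℤ) ∣ q1 - q2 - j * (p1 - p2) := by
    obtain ⟨k, hk⟩ := j2
    obtain ⟨z, hz⟩ : (3 : ℤ) ∣ (p1 - p2) ^ 2 - 1 := by
      obtain ⟨z, h | h⟩ : ∃ z, p1 - p2 = 3 * z + 1 ∨ p1 - p2 = 3 * z - 1 :=
        ⟨(p1 - p2 + 1) / 3, by omega⟩
      · exact ⟨3 * z ^ 2 + 2 * z, by rw [h]; ring⟩
      · exact ⟨3 * z ^ 2 - 2 * z, by rw [h]; ring⟩
    exact ⟨-k * (p1 - p2) - (q1 - q2) * z, by
      linear_combination (-(p1 - p2)) * hk - (q1 - q2) * hz⟩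
  obtain ⟨a, a', c', k1, k2, k3, k4⟩ := j3
    (j ^ 2 * p1 * p2 - q1 * q2 - m * (q1 - q2 + j * (p1 - p2)))
    (by linear_combination (q1 - q2 + j * (p1 - p2)) * hm)
  have j0 : (0 : ℝ) < j := K0.trans_le (by exact_mod_cast j1)
  have sm : ∀ z : ℤ, K * |z| ≤ j → |(z : ℝ) / j| < ε := fun z hz => by
    have : (K : ℝ) * |(z : ℝ)| ≤ j := by exact_mod_cast hz
    rw [abs_div, abs_of_pos j0, div_lt_iff₀ j0]
    have h5 : 1 < ε * K := by rwa [inv_lt_iff_one_lt_mul₀' hε] at hK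
    nlinarith [abs_nonneg (z : ℝ), mul_le_mul_of_nonneg_left this hε.le]
  obtain ⟨t', ht', h5, -⟩ := s' (y := ![a / j, a' / j, (1 : ℤ) / j, c' / j]) (by
    rw [dist_zero_right, pi_norm_lt_iff hε]
    intro i
    fin_cases i
    exacts [sm a k2, sm a' k3, sm 1 (by simpa using j1), sm c' k4])
  have h21 : B l2 l1 = -1 := (L.symm _ _).trans L.h12
  refine ⟨t', ht'.1, j • v + (q2 - j * p2 + 2 * m) • l1 + (q2 - j * p2 + m) • l2 + a • e1 +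
    a' • f1 + e2 + c' • f2, f2, ?_, ?_, ?_, ⟨a4, b4⟩, ?_, ?_⟩
  · simp only [map_add, map_zsmul, AddMonoidHom.add_apply, AddMonoidHom.smul_apply, smul_eq_mul,
      hvv, L.symm v l1, L.symm v l2, L.symm e1 v, L.symm f1 v, L.symm e2 v, L.symm f2 v,
      L.symm e1 l1, L.symm f1 l1, L.symm e2 l1,
      L.symm f2 l1, L.symm e1 l2, L.symm f1 l2, L.symm e2 l2, L.symm f2 l2, L.symm f1 e1,
      L.symm e2 e1, L.symm f2 e1, L.symm e2 f1, L.symm f2 f1, L.symm f2 e2, a1, a2, a3, a4, b1, b2,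
      b3, b4, c1, c2, c3, c4, L.h11, L.h22, L.h12, h21, U.u1.ee, U.u1.ff, U.u1.ef, U.u2.ee, U.u2.ff,
      U.u2.ef, U.ee, U.ef, U.fe, U.ff, ← e₁, ← e₂]
    obtain rfl : q1 = q2 + j * (p1 - p2) + 3 * m := by omega
    linear_combination 2 * k1
  · simp only [map_add, map_zsmul, smul_eq_mul, a1, a2, a3, a4, L.h11, L.h12, ← e₁]
    linarith
  · simp only [map_add, map_zsmul, smul_eq_mul, b1, b2, b3, b4, L.h22, h21, ← e₂]
    linarith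
  · simp only [map_add, map_zsmul, smul_eq_mul, L.symm f2 v, L.symm f2 l1, L.symm f2 l2,
      L.symm f2 e1, L.symm f2 f1, L.symm f2 e2, a4, b4, c4, U.ef, U.ff, U.u2.ef, U.u2.ff]
    ring
  · have e : ι (j • v + (q2 - j * p2 + 2 * m) • l1 + (q2 - j * p2 + m) • l2 + a • e1 + a' • f1 +
        e2 + c' • f2) = (j : ℝ) • (ι v + ((a : ℝ) / j) • ι e1 + ((a' : ℝ) / j) • ι f1 +
          (((1 : ℤ) : ℝ) / j) • ι e2 + ((c' : ℝ) / j) • ι f2) +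
          ((q2 - j * p2 + 2 * m : ℤ) : ℝ) • ι l1 + ((q2 - j * p2 + m : ℤ) : ℝ) • ι l2 := by
      simp only [map_add, iota_zsmul, smul_add, smul_smul, mul_div_cancel₀ _ j0.ne', Int.cast_one,
        one_smul]
      abel
    have h6 := G.h1 t' ht'.1
    have h7 := G.h2 t' ht'.1
    have h8 : ∀ (z : V) (s s1 s2 : ℝ), Hd b (x t') (y t') z →
        Hd b (x t') (y t') (s • z + s1 • ι l1 + s2 • ι l2) := fun z s s1 s2 k =>
      ⟨by simp [k.1, h6.1, h7.1], by simp [k.2, h6.2, h7.2]⟩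
    exact e ▸ h8 _ _ _ _ h5

end abs

open P291Z P269 P287Q P287Q.Cub P287Q.Zc P287T.Cy P287T.Au P287T.Rr P287T.Top P287T.Cl

theorem base : ∃ F : S6, Per.Sm F ∧ ∃ v : Cls F, Top.Node v ∧ Hdg v ∧ Pq v.1 (-2) (-1) := by
  have c : Rr.Cu (G3.fer 6) := ⟨G3.fer_hom 6, G3.fer_smooth 6⟩
  have hz : ∀ E, G3.Zf E = (1 - om) ^ 3 * (Cl.clE c E).1 := fun E => by
    rw [Sw.Zf_eq]
    exact (mul_div_cancel₀ _ Cl.c0_ne).symm
  obtain ⟨E, φ, -, h2, h3⟩ := Bs.exists_E0 c fun E => by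
    refine ⟨-Sw.q1 (Cl.clE c E).1, -Sw.q2 (Cl.clE c E).1, ?_⟩
    rw [hz, Bs.cube_om]
    conv_lhs => rw [Sw.LT_eq (v := Cl.clE c E) (stMem c E.isMF).1, Sw.e6_eq, ← Bs.ray_om]
    push_cast
    ring
  have e : (Cl.clE c E).1 = eis ![-3, -1, 0] := by
    refine mul_left_cancel₀ Cl.c0_ne ?_
    rw [← hz, h2, Bs.cube_om, Bs.ray_om, eis]
    simp
    ring
  refine ⟨_, c.per, Cl.clE c E, Bs.node_of (stLat c) (stMem c E.isMF).1 ?_ e, (stMem c E.isMF).2,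
    _, e, rfl, rfl⟩
  have := Cl.chi_eq hrr c E.isMF E.isMF
  rw [← Sw.chi_eq, h3, Int.cast_zero] at this
  exact neg_eq_zero.1 this.symm

theorem exists_node : ∃ R : ℤ, ∀ q1 q2 : ℤ, R < q1 ^ 2 + q1 * q2 + q2 ^ 2 → ¬3 ∣ q1 - q2 →
    IsCoprime q1 q2 → ∃ F : S6, Per.Sm F ∧ ∃ v : Cls F, Top.Node v ∧ Hdg v ∧ Pq v.1 q1 q2 ∧
      ∀ w ∈ LT F, Hdg w → In1 v w := by
  obtain ⟨F, h, v, hv, hh, hq⟩ := base
  obtain ⟨r, Φ, σ, η, k⟩ := Per.stPer_of Per.stHes T3 h p3 p3_hom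
  obtain ⟨D, h1, -, h3, h4⟩ := pm_geo k
  haveI := LT_free h.cu
  haveI := LT_fin h.cu
  haveI : Countable (LT F) := (bs h.cu).equivFun.injective.countable
  have T := fun t (ht : t ∈ D) => stTr h.cu (k.sm t (h1 ht)).cu (k.tr t (h1 ht))
  have E : F + p3 0 = F := by rw [map_zero, add_zero]
  obtain ⟨v', rfl⟩ := (T 0 h3).1.2 v
  obtain ⟨R, hR⟩ := exists_u (lat h.cu) (emb h.cu) h4 h3 ((node_iff h.cu ⟨_, hv.mem⟩).1 hv)
    (by rw [bZ_l1 h.cu hq, bZ_l2 h.cu hq]; decide) ((hd_io _ _ _).2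
      ((pm_hdg k (h1 h3) (((T 0 h3).2.1 v').1 hv.mem)).2
        ((tr_self (fun _ => Hdg) E _ k.zero v').1 hh)))
  refine ⟨max R 7, fun q1 q2 a1 a2 a3 => ?_⟩
  obtain ⟨t0, ht0, u, f, rfl0, rfl, rfl, c4, c5, c6⟩ := hR q1 q2 (by omega) a2
  have hu : Ch.Node (bZ h.cu) (L1 F) (L2 F) u := ⟨rfl0, a3, ⟨f, c4, c5⟩, by
    rw [Sw.ip3]; linarith [le_max_right R 7]⟩
  obtain ⟨t, ht, a, g⟩ := vg1 (lat h.cu) (emb h.cu) h4 hu ht0 c6
  obtain ⟨b1, b2, -, b4⟩ := T t ht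
  obtain ⟨u', e⟩ := b1.2 u.1
  have nu := (b4 u').1 (e ▸ (node_iff _ u).2 hu)
  refine ⟨_, k.sm t (h1 ht), u', nu, (pm_hdg k (h1 ht) nu.mem).1 (e ▸ (hd_io _ _ _).1 a),
    congrArg Prod.fst e ▸ pq_bZ h.cu u, fun w hw c => ?_⟩
  obtain ⟨r1, r2, j, d⟩ := g ⟨_, (b2 w).2 hw⟩ ((hd_io _ _ _).2 ((pm_hdg k (h1 ht) hw).2 c))
  refine (tr_In1 b1.1 u' w).1 ⟨r1, r2, j, ?_⟩
  rw [e]
  exact congrArg Subtype.val d

theorem gen_of {F : S6} (h : Per.Sm F) {v : Cls F} (hv : Top.Node v) (hh : Hdg v)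
    (g : ∀ w ∈ LT F, Hdg w → In1 v w) {d : ℤ} (hd : (d : ℝ) = 2 * Complex.normSq v.1) :
    Gen F d := by
  obtain ⟨x, hx, u, hu, rfl⟩ := hv.mem
  lift x to Lk (XF F) 4 using hx
  obtain ⟨B, η, hB, hη, -, -, hs, -, -, h3, -⟩ := stForm h.cu
  have hJ : ∀ y : Lk (XF F) 4, JF F (y.1 * hyp F ^ 2) = B y η := fun y => by rw [hB y η, hη]
  have hp : ∀ y : Lk (XF F) 4, pr F y.1 = y.1 - ((B y η : ℂ) / 3) • η.1 := fun y => by
    rw [pr, hJ, hη]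
  have k : η.1 ∈ Per.TT F 2 2 := by
    rw [hη, sq]
    exact h.cubH.hg.mul 1 1 1 1 _ h.cubH.h11 _ h.cubH.h11
  have k' : ∀ y : Lk (XF F) 4, pr F y.1 ∈ Per.TT F 2 2 ↔ y.1 ∈ Per.TT F 2 2 := fun y => by
    rw [hp]
    exact Submodule.sub_mem_iff_left _ (Submodule.smul_mem _ _ k)
  have hn : 2 * Complex.normSq (eis u) = (3 * B x x - B x η ^ 2 : ℤ) := by
    have e := hv.iso
    rw [P287T.Top.mk, ← Complex.normSq_eq_conj_mul_self, Complex.ofReal_re, J_pr_pr h.cu, hJ,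
      ← hB] at e
    refine Complex.ofReal_injective ?_
    push_cast
    linear_combination 3 * e
  refine ⟨B, η, x, hB, hs, hη, h3, k, (k' x).1 hh, by exact_mod_cast hd.trans hn, fun y hy => ?_⟩
  obtain ⟨r1, r2, j, e⟩ := g (eis ![B y η, 0, 0], pr F y.1)
    ⟨y.1, y.2, _, by simp [hJ], rfl⟩ ((k' y).2 hy)
  have e2 : pr F y.1 = j • pr F x.1 := by simpa [l1, l2] using congrArg Prod.snd e
  obtain ⟨m, e3⟩ := eis_sum (a := ![B y η, 0, 0])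
    (b := r1 • ![1, -1, 0] + r2 • ![0, 1, -1] + j • u) (by
      have := congrArg Prod.fst e
      simp [l1, l2, eis] at this ⊢
      linear_combination this)
  rw [hJ, Int.cast_inj] at hu
  have e4 : B y η = j * B x η + 3 * m := by
    simp at e3
    rw [← hu]
    linear_combination e3
  refine Submodule.mem_span_pair.2 ⟨m, j, Subtype.ext ?_⟩
  rw [hp, hp, e4] at e2
  simp only [← Int.cast_smul_eq_zsmul ℂ] at e2
  simp only [Submodule.coe_add, Submodule.coe_smul_of_tower, ← Int.cast_smul_eq_zsmul ℂ]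
  push_cast at e2
  linear_combination (norm := module) -e2

/-- Every large admissible discriminant prime to `3` occurs. -/
theorem exists_adm : ∃ R : ℤ, ∀ d, R < d → Lat.Adm d → ¬3 ∣ d →
    ∃ (F : S6) (_ : Fact (F.IsHomogeneous 3)), Per.Sm F ∧ Stm.KuK3.{w, w'} F ∧ Gen F d := by
  obtain ⟨R, hR⟩ := exists_node
  refine ⟨2 * R, fun d h1 h2 h3 => ?_⟩
  obtain ⟨x, y, a, rfl⟩ := En.adm_nf h2
  rw [Lat.nf] at h1 h3
  obtain ⟨F, h, v, hv, hh, hq, g⟩ := hR x y (by omega) (fun ⟨k, e⟩ => h3 ⟨2 * (y ^ 2 + 3 * k * y +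
    3 * k ^ 2), by rw [show x = y + 3 * k by omega]; ring⟩) a
  haveI := Fact.mk h.hom
  exact ⟨F, inferInstance, h, ku_node F h hv hh, gen_of h hv hh g (by
    rw [pq_normSq hq, Lat.nf]; push_cast; ring)⟩

/-- **Existence** with the discriminant `2 p`. -/
theorem exists_prime (R : ℕ) : ∃ (F : S6) (_ : Fact (F.IsHomogeneous 3)), Per.Sm F ∧
    Stm.KuK3.{w, w'} F ∧ ∃ p : ℕ, p.Prime ∧ R < p ∧ p % 3 = 1 ∧ Gen F (2 * p) := by
  obtain ⟨R0, h⟩ := exists_adm.{w, w'}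
  obtain ⟨p, h1, h2, h3⟩ := Nat.forall_exists_prime_gt_and_modEq (max R (R0.natAbs + 3)) (q := 3)
    (a := 1) (by decide) (by decide)
  have h4 : p % 3 = 1 := h3
  have h5 := h2.eq_two_or_odd
  obtain ⟨F, i, a, b, c⟩ := h (2 * p) (by omega) ⟨by omega, by omega, by omega, by omega,
    fun q k1 k2 k3 k4 => by
      have k5 : q ∣ 2 * p := by exact_mod_cast k4
      rcases (Nat.Prime.dvd_mul k1).1 k5 with e | e
      · exact k2 ((Nat.prime_dvd_prime_iff_eq k1 Nat.prime_two).1 e)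
      · rw [(Nat.prime_dvd_prime_iff_eq k1 h2).1 e] at k3
        omega⟩ (by omega)
  exact ⟨F, i, a, b, p, h2, by omega, h4, c⟩

end Vale.Agent.P287D.Ex.Pm
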